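import Mathlib

/-! # P275, lowest degree: reading off the table (row E of helper912, row FIN of helper490) -/

namespace Vale.Agent.P275.R2.H50

open Filter Topology

/-- the Poincare sum, normalised -/
theorem tend_sum {R W : ℕ} (hW : W ≤ 4 * R) (h : ℕ → ℕ → ℕ) (hh : ∀ k w, h k w ≠ 0 → W ≤ w) :
    Tendsto (fun s : ℝ => (∑ k ∈ Finset.range (2 * R + 1), ∑ w ∈ Finset.range (2 * k + 1),
      (-1) ^ k * (h k w : ℂ) * (s : ℂ) ^ (4 * R - w)) / (s : ℂ) ^ (4 * R - W)) atTop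
      (𝓝 (∑ k ∈ Finset.range (2 * R + 1), ∑ w ∈ Finset.range (2 * k + 1),
        if w = W then (-1) ^ k * (h k w : ℂ) else 0)) := by
  have e : (fun s : ℝ => (∑ k ∈ Finset.range (2 * R + 1), ∑ w ∈ Finset.range (2 * k + 1),
      (-1) ^ k * (h k w : ℂ) * (s : ℂ) ^ (4 * R - w)) / (s : ℂ) ^ (4 * R - W)) =
      fun s : ℝ => ∑ k ∈ Finset.range (2 * R + 1), ∑ w ∈ Finset.range (2 * k + 1),
      (-1) ^ k * (h k w : ℂ) * ((s : ℂ) ^ (4 * R - w) / (s : ℂ) ^ (4 * R - W)) := by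
    funext s
    rw [Finset.sum_div]
    refine Finset.sum_congr rfl fun k _ => ?_
    rw [Finset.sum_div]
    exact Finset.sum_congr rfl fun w _ => by rw [mul_div_assoc]
  rw [e]
  refine tendsto_finsetSum _ fun k hk => tendsto_finsetSum _ fun w hw => ?_
  rw [Finset.mem_range] at hk hw
  by_cases h0 : h k w = 0
  · simp [h0]
  have hWw := hh k w h0
  have hinv : Tendsto (fun s : ℝ => ((s : ℂ))⁻¹) atTop (𝓝 0) := by
    have := (Complex.continuous_ofReal.tendsto 0).comp tendsto_inv_atTop_zero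
    simpa [Function.comp_def] using this
  have key : Tendsto (fun s : ℝ => (s : ℂ) ^ (4 * R - w) / (s : ℂ) ^ (4 * R - W)) atTop
      (𝓝 (if w = W then 1 else 0)) := by
    have hev : (fun s : ℝ => (((s : ℂ))⁻¹) ^ (w - W)) =ᶠ[atTop]
        fun s : ℝ => (s : ℂ) ^ (4 * R - w) / (s : ℂ) ^ (4 * R - W) := by
      filter_upwards [eventually_gt_atTop 0] with s hs
      have hs' : (s : ℂ) ≠ 0 := by exact_mod_cast hs.ne'
      have : 4 * R - W = (4 * R - w) + (w - W) := by omega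
      rw [this, pow_add, inv_pow]
      field_simp
    refine Tendsto.congr' hev ?_
    split_ifs with hwW
    · subst hwW
      simp
    · have : w - W ≠ 0 := by omega
      simpa [this] using hinv.pow (w - W)
  have := (tendsto_const_nhds (x := (-1 : ℂ) ^ k * (h k w : ℂ))).mul key
  simpa using this

theorem core {R D g M G : ℕ} (hM : M ≠ 0) (hDR : D + 1 ≤ R) (h : ℕ → ℕ → ℕ)
    (hG : 2 * G + (2 * D + 2) = 4 * R + 2 * (2 * g - 2))
    (hw : ∀ k w, h k w ≠ 0 → k ≤ w ∧ w ≤ 2 * k)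
    (hz : ∀ k w, k ≤ 2 * D → h k w = 0)
    (hs : ∑ w ∈ Finset.range (2 * (2 * D + 1) + 1), h (2 * D + 1) w = 2 * g - 2)
    (E : ℕ → ℂ)
    (hE : Tendsto (fun p : ℕ => E p / (p : ℂ) ^ G) (atTop ⊓ 𝓟 {p | p.Prime ∧ p ≡ 1 [MOD M]})
      (𝓝 (-((2 * g - 2 : ℕ) : ℂ))))
    (hcnt : ∀ p : ℕ, p.Prime → p ≡ 1 [MOD M] →
      ((p : ℂ) - 1) ^ (2 * g - 2) *
        ∑ k ∈ Finset.range (2 * R + 1), ∑ w ∈ Finset.range (2 * k + 1), (-1) ^ k * (h k w : ℂ) *
            ((Real.sqrt p : ℝ) : ℂ) ^ (4 * R - w) = E p) :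
    (∀ w, h (2 * D + 1) w = if w = 2 * (D + 1) then 2 * g - 2 else 0) ∧
    h (2 * D + 2) (2 * D + 2) = 0 := by
  set L : Filter ℕ := atTop ⊓ 𝓟 {p | p.Prime ∧ p ≡ 1 [MOD M]} with hL
  have hne : L.NeBot := by
    rw [hL]
    exact Filter.frequently_iff_neBot.1 (Nat.frequently_atTop_modEq_one hM)
  have hLtop : L ≤ atTop := inf_le_left
  have hpr : ∀ᶠ p in L, p.Prime ∧ p ≡ 1 [MOD M] :=
    Filter.mem_inf_of_right (Filter.mem_principal_self _)
  have hsq : Tendsto (fun p : ℕ => Real.sqrt p) L atTop :=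
    (Real.tendsto_sqrt_atTop.comp tendsto_natCast_atTop_atTop).mono_left hLtop
  have hq : Tendsto (fun p : ℕ => (((p : ℂ) - 1) / (p : ℂ)) ^ (2 * g - 2)) L (𝓝 1) := by
    have h1 : Tendsto (fun p : ℕ => (1 : ℂ) - ((p : ℝ)⁻¹ : ℝ)) L (𝓝 1) := by
      have h2 : Tendsto (fun p : ℕ => ((p : ℝ)⁻¹ : ℝ)) L (𝓝 0) :=
        (tendsto_inv_atTop_zero.comp tendsto_natCast_atTop_atTop).mono_left hLtop
      have h3 := (Complex.continuous_ofReal.tendsto 0).comp h2
      simpa [Function.comp_def] using h3.const_sub (1 : ℂ)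
    have h4 := h1.pow (2 * g - 2)
    rw [one_pow] at h4
    refine h4.congr' ?_
    filter_upwards [hpr] with p hp
    have : (p : ℂ) ≠ 0 := by exact_mod_cast hp.1.ne_zero
    congr 1
    push_cast
    field_simp
  -- the normalised count
  have hrel : ∀ W, W ≤ 4 * R → ∀ p : ℕ, p.Prime → p ≡ 1 [MOD M] →
      (((p : ℂ) - 1) / (p : ℂ)) ^ (2 * g - 2) *
        ((∑ k ∈ Finset.range (2 * R + 1), ∑ w ∈ Finset.range (2 * k + 1),
          (-1) ^ k * (h k w : ℂ) * ((Real.sqrt p : ℝ) : ℂ) ^ (4 * R - w)) /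
          ((Real.sqrt p : ℝ) : ℂ) ^ (4 * R - W)) =
        E p / ((Real.sqrt p : ℝ) : ℂ) ^ (4 * R - W + 2 * (2 * g - 2)) := by
    intro W _ p hp hpM
    rw [← hcnt p hp hpM]
    have hp0 : (0 : ℝ) < p := by exact_mod_cast hp.pos
    have hs0 : ((Real.sqrt p : ℝ) : ℂ) ≠ 0 := by
      exact_mod_cast (Real.sqrt_pos.2 hp0).ne'
    have hps : (p : ℂ) = ((Real.sqrt p : ℝ) : ℂ) ^ 2 := by
      rw [← Complex.ofReal_pow, Real.sq_sqrt hp0.le]
      simp
    rw [div_pow, pow_add, pow_mul, ← hps]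
    have hpc : (p : ℂ) ≠ 0 := by exact_mod_cast hp.ne_zero
    field_simp
  have hGs : ∀ p : ℕ, p.Prime → (p : ℂ) ^ G = ((Real.sqrt p : ℝ) : ℂ) ^ (2 * G) := by
    intro p hp
    rw [pow_mul, ← Complex.ofReal_pow, Real.sq_sqrt (Nat.cast_nonneg p)]
    simp
  -- first step
  have h11 : h (2 * D + 1) (2 * D + 1) = 0 := by
    have ht := (tend_sum (R := R) (W := 2 * D + 1) (by omega) h (fun k w hkw => by
      have h1 := hw k w hkw
      have h2 : ¬ k ≤ 2 * D := fun hk => hkw (hz k w hk)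
      omega)).comp hsq
    have ht2 := hq.mul ht
    have ht3 : Tendsto (fun p : ℕ => E p / (p : ℂ) ^ G * ((Real.sqrt p : ℝ) : ℂ)⁻¹) L (𝓝 0) := by
      have hi : Tendsto (fun p : ℕ => ((Real.sqrt p : ℝ) : ℂ)⁻¹) L (𝓝 0) := by
        have := (Complex.continuous_ofReal.tendsto 0).comp (tendsto_inv_atTop_zero.comp hsq)
        simpa [Function.comp_def] using this
      simpa using hE.mul hi
    have hu := tendsto_nhds_unique_of_eventuallyEq ht2 ht3 (by
      filter_upwards [hpr] with p hp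
      have hp0 : (0 : ℝ) < p := by exact_mod_cast hp.1.pos
      have hs0 : ((Real.sqrt p : ℝ) : ℂ) ≠ 0 := by
        exact_mod_cast (Real.sqrt_pos.2 hp0).ne'
      have := hrel (2 * D + 1) (by omega) p hp.1 hp.2
      simp only [Function.comp_apply]
      rw [this, hGs p hp.1]
      have e2 : 4 * R - (2 * D + 1) + 2 * (2 * g - 2) = 2 * G + 1 := by omega
      rw [e2, pow_succ, div_mul_eq_div_div, div_eq_mul_inv (E p / _)])
    rw [one_mul] at hu
    rw [Finset.sum_eq_single (2 * D + 1)] at hu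
    · rw [Finset.sum_eq_single (2 * D + 1)] at hu
      · rw [if_pos rfl] at hu
        have : ((-1 : ℂ)) ^ (2 * D + 1) ≠ 0 := pow_ne_zero _ (by norm_num)
        have h3 := (mul_eq_zero.1 hu).resolve_left this
        exact_mod_cast h3
      · intro b _ hb
        rw [if_neg hb]
      · intro hb
        exact absurd (Finset.mem_range.2 (by omega)) hb
    · intro k _ hk
      refine Finset.sum_eq_zero fun w _ => ?_
      split_ifs with hww
      · have : h k w = 0 := by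
          by_contra hkw
          have h1 := hw k w hkw
          have h2 : ¬ k ≤ 2 * D := fun hk => hkw (hz k w hk)
          omega
        simp [this]
      · rfl
    · intro hb
      exact absurd (Finset.mem_range.2 (by omega)) hb
  -- second step
  have h22 : -(h (2 * D + 1) (2 * D + 2) : ℂ) + (h (2 * D + 2) (2 * D + 2) : ℂ) =
      -((2 * g - 2 : ℕ) : ℂ) := by
    have ht := (tend_sum (R := R) (W := 2 * D + 2) (by omega) h (fun k w hkw => by
      have h1 := hw k w hkw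
      have h2 : ¬ k ≤ 2 * D := fun hk => hkw (hz k w hk)
      have h3 : ¬ (k = 2 * D + 1 ∧ w = 2 * D + 1) := by
        rintro ⟨rfl, rfl⟩
        exact hkw h11
      omega)).comp hsq
    have ht2 := hq.mul ht
    have hu := tendsto_nhds_unique_of_eventuallyEq ht2 hE (by
      filter_upwards [hpr] with p hp
      have := hrel (2 * D + 2) (by omega) p hp.1 hp.2
      simp only [Function.comp_apply]
      rw [this, hGs p hp.1]
      have e2 : 4 * R - (2 * D + 2) + 2 * (2 * g - 2) = 2 * G := by omega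
      rw [e2])
    rw [one_mul] at hu
    rw [← hu]
    have hsub : ({2 * D + 1, 2 * D + 2} : Finset ℕ) ⊆ Finset.range (2 * R + 1) := by
      intro x hx
      simp only [Finset.mem_insert, Finset.mem_singleton] at hx
      rw [Finset.mem_range]
      omega
    rw [← Finset.sum_subset hsub, Finset.sum_pair (by omega)]
    · rw [Finset.sum_eq_single (2 * D + 2), Finset.sum_eq_single (2 * D + 2), if_pos rfl, if_pos rfl]
      · have e1 : ((-1 : ℂ)) ^ (2 * D + 1) = -1 := by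
          rw [pow_succ, pow_mul]; simp
        have e2 : ((-1 : ℂ)) ^ (2 * D + 2) = 1 := by
          rw [pow_add, pow_mul]; simp
        rw [e1, e2]
        ring
      · intro b _ hb
        rw [if_neg hb]
      · intro hb
        exact absurd (Finset.mem_range.2 (by omega)) hb
      · intro b _ hb
        rw [if_neg hb]
      · intro hb
        exact absurd (Finset.mem_range.2 (by omega)) hb
    · intro k _ hk
      refine Finset.sum_eq_zero fun w _ => ?_
      simp only [Finset.mem_insert, Finset.mem_singleton, not_or] at hk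
      split_ifs with hww
      · have : h k w = 0 := by
          by_contra hkw
          have h1 := hw k w hkw
          have h2 : ¬ k ≤ 2 * D := fun hk => hkw (hz k w hk)
          omega
        simp [this]
      · rfl
  have h23 : h (2 * D + 1) (2 * D + 2) = (2 * g - 2) + h (2 * D + 2) (2 * D + 2) := by
    have h4 : (h (2 * D + 1) (2 * D + 2) : ℂ) =
        ((2 * g - 2 : ℕ) : ℂ) + (h (2 * D + 2) (2 * D + 2) : ℂ) := by linear_combination -h22
    exact_mod_cast h4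
  have hmem : 2 * D + 2 ∈ Finset.range (2 * (2 * D + 1) + 1) := Finset.mem_range.2 (by omega)
  have hle := Finset.single_le_sum (f := fun w => h (2 * D + 1) w) (fun _ _ => Nat.zero_le _) hmem
  rw [hs] at hle
  have h24 : h (2 * D + 2) (2 * D + 2) = 0 := by omega
  refine ⟨fun w => ?_, h24⟩
  have h25 : h (2 * D + 1) (2 * D + 2) = 2 * g - 2 := by omega
  split_ifs with hww
  · rw [hww, show 2 * (D + 1) = 2 * D + 2 by ring, h25]
  · by_contra hne0
    have h1 := hw _ _ hne0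
    have hwm : w ∈ Finset.range (2 * (2 * D + 1) + 1) := Finset.mem_range.2 (by omega)
    have h5 := Finset.add_sum_erase (Finset.range (2 * (2 * D + 1) + 1))
      (fun w => h (2 * D + 1) w) hmem
    beta_reduce at h5
    have hwe : w ∈ (Finset.range (2 * (2 * D + 1) + 1)).erase (2 * D + 2) :=
      Finset.mem_erase.2 ⟨by omega, hwm⟩
    have h6 := Finset.single_le_sum (f := fun w => h (2 * D + 1) w)
      (fun _ _ => Nat.zero_le _) hwe
    beta_reduce at h6
    omega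

/-- ROW E of helper912. -/
theorem rowE {n m g : ℕ} (hn : 1 ≤ n) (hm : m ∣ n) (h2 : 2 ≤ m) (hg : 2 ≤ g) (e : ℂ → ℂ)
    (he : Tendsto (fun x : ℝ => e x / (x : ℂ) ^ ((g - 1) * (n ^ 2 + n * (n / m)) - 1)) atTop
      (𝓝 (-((2 * g - 2 : ℕ) : ℂ)))) (h : ℕ → ℕ → ℕ)
    (hw : ∀ k w, h k w ≠ 0 → k ≤ w ∧ w ≤ 2 * k)
    (hz : ∀ k w, k ≤ 2 * (n * (n - n / m) * (g - 1)) → h k w = 0)
    (hs : ∑ w ∈ Finset.range (2 * (2 * (n * (n - n / m) * (g - 1)) + 1) + 1),
      h (2 * (n * (n - n / m) * (g - 1)) + 1) w = 2 * g - 2)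
    (hcnt : ∀ p : ℕ, p.Prime → p ≡ 1 [MOD 2 * n] →
      ((p : ℂ) - 1) ^ (2 * g - 2) *
        ∑ k ∈ Finset.range (2 * ((n ^ 2 - 1) * (g - 1)) + 1),
          ∑ w ∈ Finset.range (2 * k + 1), (-1) ^ k * (h k w : ℂ) *
            ((Real.sqrt p : ℝ) : ℂ) ^ (4 * ((n ^ 2 - 1) * (g - 1)) - w) = e p) :
    (∀ w, h (2 * (n * (n - n / m) * (g - 1)) + 1) w
      = if w = 2 * (n * (n - n / m) * (g - 1) + 1) then 2 * g - 2 else 0) ∧
    h (2 * (n * (n - n / m) * (g - 1)) + 2) (2 * (n * (n - n / m) * (g - 1)) + 2) = 0 := by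
  obtain ⟨t, rfl⟩ := hm
  have hm0 : 0 < m := by omega
  rw [Nat.mul_div_cancel_left t hm0] at *
  have ht0 : 1 ≤ t := by
    rcases Nat.eq_zero_or_pos t with h0 | h0
    · simp [h0] at hn
    · exact h0
  obtain ⟨γ, rfl⟩ : ∃ γ, g = γ + 2 := ⟨g - 2, by omega⟩
  obtain ⟨μ, rfl⟩ : ∃ μ, m = μ + 2 := ⟨m - 2, by omega⟩
  obtain ⟨τ, rfl⟩ : ∃ τ, t = τ + 1 := ⟨t - 1, by omega⟩
  have e1 : (μ + 2) * (τ + 1) - (τ + 1) = (μ + 1) * (τ + 1) := by
    rw [show (μ + 2) * (τ + 1) = (μ + 1) * (τ + 1) + (τ + 1) by ring, Nat.add_sub_cancel]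
  have e2 : γ + 2 - 1 = γ + 1 := by omega
  have e3 : ((μ + 2) * (τ + 1)) ^ 2 - 1 =
      (μ + 2) * (τ + 1) * ((μ + 2) * (τ + 1) - 1) + ((μ + 2) * (τ + 1) - 1) := by
    have : 1 ≤ (μ + 2) * (τ + 1) := hn
    obtain ⟨c, hc⟩ : ∃ c, (μ + 2) * (τ + 1) = c + 1 := ⟨(μ + 2) * (τ + 1) - 1, by omega⟩
    rw [hc]
    have : (c + 1) ^ 2 = (c + 1) * c + c + 1 := by ring
    rw [this]
    simp
  refine core (M := 2 * ((μ + 2) * (τ + 1)))
    (R := (((μ + 2) * (τ + 1)) ^ 2 - 1) * (γ + 2 - 1))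
    (G := (γ + 2 - 1) * (((μ + 2) * (τ + 1)) ^ 2 + (μ + 2) * (τ + 1) * (τ + 1)) - 1)
    (by positivity) ?_ h ?_ hw hz hs (fun p => e p) ?_ hcnt
  · rw [e1, e2]
    have h5 : 1 ≤ ((μ + 2) * (τ + 1)) ^ 2 := Nat.one_le_pow _ _ (by positivity)
    zify [h5]
    nlinarith [Nat.zero_le μ, Nat.zero_le τ, Nat.zero_le γ, mul_nonneg (Int.natCast_nonneg μ) (Int.natCast_nonneg τ),
      mul_nonneg (mul_nonneg (Int.natCast_nonneg μ) (Int.natCast_nonneg τ)) (Int.natCast_nonneg γ),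
      mul_nonneg (Int.natCast_nonneg μ) (Int.natCast_nonneg γ),
      mul_nonneg (Int.natCast_nonneg τ) (Int.natCast_nonneg γ),
      Int.natCast_nonneg μ, Int.natCast_nonneg τ, Int.natCast_nonneg γ]
  · rw [e1, e2]
    have h5 : 1 ≤ ((μ + 2) * (τ + 1)) ^ 2 := Nat.one_le_pow _ _ (by positivity)
    have h6 : 1 ≤ (γ + 1) * (((μ + 2) * (τ + 1)) ^ 2 + (μ + 2) * (τ + 1) * (τ + 1)) := by
      have : 0 < (γ + 1) * (((μ + 2) * (τ + 1)) ^ 2 + (μ + 2) * (τ + 1) * (τ + 1)) := by positivity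
      omega
    have h7 : 2 ≤ 2 * (γ + 2) := by omega
    zify [h5, h6, h7]
    ring
  · have h8 : Tendsto (fun p : ℕ => (p : ℝ)) (atTop ⊓ 𝓟 {p : ℕ | p.Prime ∧ p ≡ 1 [MOD 2 * ((μ + 2) * (τ + 1))]})
        atTop := tendsto_natCast_atTop_atTop.mono_left inf_le_left
    have h9 := he.comp h8
    simpa [Function.comp_def] using h9

end Vale.Agent.P275.R2.H50
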